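import Vale.Agent.P144E.An3.Tele
import Vale.Agent.P144D.B.Shr

/-!
The change of scale up to a rough boundary.
-/

namespace Vale.Agent.P144Z

open Finset Matrix B5c

namespace An3

theorem sq_le_rpow {a b β : ℝ} (h0 : 0 < a) (h : a ≤ b) (h1 : β ≤ 1 / 2) :
    (a / b) ^ 2 ≤ (a / b) ^ (1 + β) := by
  have hb := h0.trans_le h
  rw [← Real.rpow_natCast]
  exact Real.rpow_le_rpow_of_exponent_ge (by positivity) ((div_le_one hb).2 h)
    (by push_cast; linarith)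

theorem rpow_le_mul {x y k β : ℝ} (hx : 0 ≤ x) (hy : 0 ≤ y) (hk : 1 ≤ k) (h : x ≤ k * y)
    (h0 : 0 < β) (h1 : β ≤ 1 / 2) : x ^ (1 + β) ≤ k ^ 2 * y ^ (1 + β) := by
  refine (Real.rpow_le_rpow hx h (by linarith)).trans ?_
  rw [Real.mul_rpow (by linarith) hy, ← Real.rpow_natCast]
  exact mul_le_mul_of_nonneg_right (Real.rpow_le_rpow_of_exponent_le hk (by push_cast; linarith))
    (by positivity)

variable {M : ℕ} [NeZero M]

/-- Only the order zero matters in a change of scale. -/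
theorem hsq_zero (A : Gauge M) {ℓ ℓ' c τ : ℝ} (h0 : 0 < ℓ) (h : ℓ ≤ ℓ') (hτ : (ℓ / ℓ') ^ 2 ≤ τ)
    {X Y : Finset (Tor M)} (hXY : X ⊆ Y) (u : Tor M × Fin 4 → ℝ)
    (hc : l2sq X u ≤ c * τ * hsq A ℓ' Y u) : hsq A ℓ X u ≤ (c + 1) * τ * hsq A ℓ' Y u := by
  have h1 := h0.trans_le h
  have h2 := hsq_of_zero A h0.le h hXY u (c := c * τ * ℓ' ^ 2 / ℓ ^ 2)
    ((mul_le_mul_of_nonneg_right hc (sq_nonneg _)).trans (le_of_eq (by field_simp)))
  have h3 := mul_le_mul_of_nonneg_right hτ (E4.hsq_nonneg A (ρ := ℓ') Y u)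
  have h4 : (c * τ * ℓ' ^ 2 / ℓ ^ 2 + 1) * ℓ ^ 2 * hsq A ℓ' Y u =
      (c * τ * hsq A ℓ' Y u + (ℓ / ℓ') ^ 2 * hsq A ℓ' Y u) * ℓ' ^ 2 := by field_simp
  have h5 := le_of_mul_le_mul_right (h2.trans_eq h4) (by positivity)
  linarith

end An3

open An3

/-- The change of scale up to a rough boundary. -/
theorem shrH_of (hD : DecH) (hT : TeleH) (hF : FlatW) : ShrH := by
  classical
  intro N
  obtain ⟨c, β, hc, hβ, hβ', Q, hds⟩ := hD N
  obtain ⟨c', hc', ht⟩ := hT c β hc hβ hβ'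
  obtain ⟨Cd, hCd, hdeep⟩ := deep_est
  obtain ⟨Cb, hCb, hbulk⟩ := W.bulk_est
  set K := Cb * (324 * c' ^ 2 + 1) + 8100 * c' ^ 2 + Cd ^ 2 + 65 with hK
  have hc2 : 1 ≤ c' ^ 2 := one_le_pow₀ hc'
  have hK0 : 0 ≤ Cb * (324 * c' ^ 2 + 1) := by positivity
  have hd0 := sq_nonneg Cd
  have hK1 : 1 ≤ K := by linarith
  refine ⟨K, β, hK1, hβ, hβ', Q + 2 * N + 14,
    fun M _ R B r hS hB hM ℓ ℓ' h1 h2 h4 z ⟨f₀, hf₀, hf₀'⟩ u => ?_⟩
  have q1 : Q * ℓ' + 2 * (N * ℓ') + 14 * ℓ' ≤ r := le_of_eq_of_le (by ring) h4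
  have q2 : N ≤ N * ℓ' := Nat.le_mul_of_pos_right _ (by omega)
  have l0 : (0 : ℝ) < ℓ := by exact_mod_cast h1
  have l1 : (ℓ : ℝ) ≤ ℓ' := by exact_mod_cast h2
  have l2 := l0.trans_le l1
  set H := hsq (R.pw * B) ℓ' (ball z (2 * ℓ')) u with hH
  have H0 : 0 ≤ H := E4.hsq_nonneg _ _ _
  have t1 := sq_le_rpow l0 l1 hβ'
  set τ := ((ℓ : ℝ) / ℓ') ^ (1 + β) with hτ
  suffices h : ∃ k ≤ K, hsq (R.pw * B) ℓ (ball z (2 * ℓ)) u ≤ k * τ * H by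
    obtain ⟨k, h, h'⟩ := h
    refine h'.trans (mul_le_mul_of_nonneg_right (mul_le_mul_of_nonneg_right (h.trans ?_)
      (by positivity)) H0)
    exact le_self_pow₀ hK1 (by norm_num)
  have hz := fun c => hsq_zero (c := c) (R.pw * B) l0 l1 t1
    (E3.ball_mono z (by omega : 2 * ℓ ≤ 2 * ℓ')) u
  have hl : ∀ X ⊆ ball z (2 * ℓ'), l2sq X u ≤ H := fun X hX =>
    (E4.l2sq_mono hX u).trans (E4.l2sq_le_hsq _ _ _ _)
  by_cases h5 : ℓ' ≤ 8 * ℓ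
  · have k1 : (ℓ' : ℝ) ≤ 8 * ℓ := by exact_mod_cast h5
    have k3 : 1 ≤ 64 * ((ℓ : ℝ) / ℓ') ^ 2 := by
      rw [div_pow, ← mul_div_assoc, le_div_iff₀ (by positivity)]
      nlinarith
    have k2 := hz 64 ((hl _ (E3.ball_mono z (by omega))).trans
      (le_mul_of_one_le_left H0 (by linarith)))
    exact ⟨_, by linarith, k2⟩
  by_cases h6 : ∀ f, tdist f z ≤ 2 * ℓ + 6 → f ∉ R.In
  · have k1 := hdeep M R B hB.sign z ℓ ℓ' h1 (by omega)
      (fun f h => ⟨h6 f h, flux_out hB (h6 f h)⟩) u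
    have k2 : ((ℓ : ℝ) / ℓ') ^ 6 ≤ ((ℓ : ℝ) / ℓ') ^ 2 :=
      pow_le_pow_of_le_one (by positivity) ((div_le_one l2).2 l1) (by norm_num)
    have k4 : hsq (R.pw * B) ℓ (ball z (2 * ℓ)) u ≤ Cd ^ 2 * ((ℓ : ℝ) / ℓ') ^ 6 * H := by
      rw [div_pow, mul_div_assoc', div_mul_eq_mul_div, le_div_iff₀ (by positivity)]
      exact k1
    have k5 : Cd ^ 2 * ((ℓ : ℝ) / ℓ') ^ 6 * H ≤ Cd ^ 2 * τ * H := by
      gcongr
      exact k2.trans t1
    exact ⟨_, by linarith, k4.trans k5⟩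
  push Not at h6
  obtain ⟨f₁, hf₁, hf₁'⟩ := h6
  obtain ⟨b, hb, hmin⟩ := exists_min_image (univ.filter fun x => x ∉ R.In) (fun x => tdist x z)
    ⟨f₀, mem_filter.2 ⟨mem_univ _, hf₀⟩⟩
  replace hb := (mem_filter.1 hb).2
  have hd : tdist b z ≤ ℓ' + 1 := (hmin f₀ (mem_filter.2 ⟨mem_univ _, hf₀⟩)).trans hf₀'
  have hb0 : tdist b b = 0 := tdist_self b
  have hzb : tdist z b = tdist b z := tdist_comm _ _
  have hFb : Flat B b (2 * (ℓ' / 2)) := hF M R B N r hS hB b (ℓ' + 2 * ℓ + 7) _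
    ⟨⟨f₁, hf₁', by have := tdist_triangle f₁ z b; omega⟩, b, hb, by omega⟩ (by omega)
  have key : ∀ s : ℕ, 8 ≤ s → ∀ X ⊆ ball z (2 * ℓ'), X ⊆ ball b s →
      l2sq X u ≤ 9 * c' ^ 2 * ((s : ℝ) / ℓ') ^ (1 + β) * H := by
    intro s hs X hX hX'
    have k0 : (0 : ℝ) < (ℓ' / 2 : ℕ) := by exact_mod_cast (by omega : 0 < ℓ' / 2)
    have k1 : (ℓ' : ℝ) ≤ 3 * (ℓ' / 2 : ℕ) := by exact_mod_cast (by omega : ℓ' ≤ 3 * (ℓ' / 2))
    have k2 : l2sq X u ≤ c' ^ 2 * ((s : ℝ) / (ℓ' / 2 : ℕ)) ^ (1 + β) * H := by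
      by_cases k3 : s ≤ ℓ' / 2
      · have k4 : Q * (ℓ' / 2 + 1) ≤ Q * ℓ' := Nat.mul_le_mul_left _ (by omega)
        obtain ⟨d1, d2⟩ := hds M R B r b hB.sign hS hM hb (ℓ' / 2) (by omega) hFb
        exact (E4.l2sq_mono hX' u).trans ((ht M _ b _ _ (by omega) d1 d2 s hs k3 u).trans
          (mul_le_mul_of_nonneg_left (E4.hsq_mono _ (Nat.cast_nonneg _) (Nat.cast_le.2 (by omega))
            (E4.ball_sub (by omega)) u) (by positivity)))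
      · have k4 : ((ℓ' / 2 : ℕ) : ℝ) ≤ s := by exact_mod_cast (by omega : ℓ' / 2 ≤ s)
        exact (hl X hX).trans (le_mul_of_one_le_left H0 (one_le_mul_of_one_le_of_one_le hc2
          (Real.one_le_rpow ((one_le_div k0).2 k4) (by linarith))))
    have k3 := rpow_le_mul (x := (s : ℝ) / (ℓ' / 2 : ℕ)) (y := (s : ℝ) / ℓ') (k := 3)
      (by positivity) (by positivity) (by norm_num) (by
        rw [← mul_div_assoc, div_le_div_iff₀ k0 l2]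
        nlinarith [Nat.cast_nonneg (α := ℝ) s]) hβ hβ'
    calc _ ≤ c' ^ 2 * (3 ^ 2 * ((s : ℝ) / ℓ') ^ (1 + β)) * H := k2.trans (by gcongr)
      _ = _ := by ring
  by_cases h7 : tdist b z ≤ 20 * ℓ
  · have k1 := key (30 * ℓ) (by omega) _ (E3.ball_mono z (by omega : 2 * ℓ ≤ 2 * ℓ'))
      (E4.ball_sub (by omega))
    have k3 := rpow_le_mul (x := ((30 * ℓ : ℕ) : ℝ) / ℓ') (y := (ℓ : ℝ) / ℓ') (k := 30)
      (by positivity) (by positivity) (by norm_num) (le_of_eq (by push_cast; ring)) hβ hβ'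
    have k2 := hz (8100 * c' ^ 2) (k1.trans (by
      calc _ ≤ 9 * c' ^ 2 * (30 ^ 2 * τ) * H := by gcongr
        _ = _ := by ring))
    exact ⟨_, by linarith, k2⟩
  · obtain ⟨ρ, hρ⟩ : ∃ ρ, tdist b z = ρ + 2 := ⟨tdist b z - 2, by omega⟩
    have hin : ∀ x, tdist x z ≤ ρ + 1 → x ∈ R.In := fun x hx => by
      by_contra h
      have := hmin x (mem_filter.2 ⟨mem_univ _, h⟩)
      omega
    have hFz : Flat B z ρ := hF M R B N r hS hB z (ρ + 2) _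
      ⟨⟨z, hin z (by rw [tdist_self]; omega), by rw [tdist_self]; omega⟩, b, hb, hρ.le⟩ (by omega)
    have k1 := hbulk M _ (isW R hB.sign) z ℓ ρ h1 (by omega) (by omega) (fun x hx =>
      flux_in hB.sign (hFz x hx) fun y hy => hin y (by have := tdist_triangle y x z; omega)) u
    have r0 : (0 : ℝ) < ρ := by exact_mod_cast (by omega : 0 < ρ)
    have r1 : (ρ : ℝ) ≤ ℓ' := by exact_mod_cast (by omega : ρ ≤ ℓ')
    have r2 : (ℓ : ℝ) ≤ ρ := by exact_mod_cast (by omega : ℓ ≤ ρ)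
    have k2 := key (6 * ρ) (by omega) (ball z ρ) (E3.ball_mono z (by omega))
      (E4.ball_sub (by omega))
    have k5 := rpow_le_mul (x := ((6 * ρ : ℕ) : ℝ) / ℓ') (y := (ρ : ℝ) / ℓ') (k := 6)
      (by positivity) (by positivity) (by norm_num) (le_of_eq (by push_cast; ring)) hβ hβ'
    have k3 := hsq_zero (R.pw * B) r0 r1 (sq_le_rpow r0 r1 hβ')
      (E3.ball_mono z (by omega : ρ ≤ 2 * ℓ')) u (c := 324 * c' ^ 2) (k2.trans (by
        calc _ ≤ 9 * c' ^ 2 * (6 ^ 2 * ((ρ : ℝ) / ℓ') ^ (1 + β)) * H := by gcongr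
          _ = _ := by ring))
    have k6 : ((ℓ : ℝ) / ρ) ^ (1 + β) * ((ρ : ℝ) / ℓ') ^ (1 + β) = τ := by
      rw [← Real.mul_rpow (by positivity) (by positivity), hτ]
      congr 1
      field_simp
    have k7 := sq_le_rpow l0 r2 hβ'
    have k4 : hsq (R.pw * B) ℓ (ball z (2 * ℓ)) u ≤ Cb * (324 * c' ^ 2 + 1) * τ * H := by
      calc _ ≤ Cb * ((ℓ : ℝ) / ρ) ^ (1 + β) *
            ((324 * c' ^ 2 + 1) * ((ρ : ℝ) / ℓ') ^ (1 + β) * H) := by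
            refine k1.trans (mul_le_mul (by gcongr) k3 (E4.hsq_nonneg _ _ _) (by positivity))
        _ = _ := by rw [← k6]; ring
    exact ⟨_, by linarith, k4⟩

end Vale.Agent.P144Z
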