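import Vale.Agent.P144E.Basic
import Vale.Agent.P144D.B.Tele

/-!
From the homogeneous to the inhomogeneous Hölder decay.
-/

namespace Vale.Agent.P144Z

open Finset Matrix Tele

namespace An3

theorem rpow_sq {x : ℝ} (hx : 0 ≤ x) (β : ℝ) : (x ^ ((1 + β) / 2)) ^ 2 = x ^ (1 + β) := by
  rw [← Real.rpow_natCast, ← Real.rpow_mul hx]
  congr 1
  push_cast
  ring

theorem gh {r : ℝ} (hr : 0 < r) (β : ℝ) : r ^ ((1 + β) / 2) * r ^ ((1 - β) / 2) = r := by
  rw [← Real.rpow_add hr, show (1 + β) / 2 + (1 - β) / 2 = 1 by ring, Real.rpow_one]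

theorem g_le {r s β : ℝ} (hr : 0 ≤ r) (hs : 0 ≤ s) (h : r ≤ 2 * s) (h0 : 0 < β) (h1 : β ≤ 1 / 2) :
    r ^ ((1 + β) / 2) ≤ 2 * s ^ ((1 + β) / 2) := by
  refine (Real.rpow_le_rpow hr h (by linarith)).trans ?_
  rw [Real.mul_rpow (by norm_num) hs]
  refine mul_le_mul_of_nonneg_right ?_ (by positivity)
  exact (Real.rpow_le_rpow_of_exponent_le (by norm_num) (by linarith : (1 + β) / 2 ≤ 1)).trans_eq
    (Real.rpow_one _)

theorem h_le {r s β : ℝ} (hs : 0 ≤ s) (h : 2 * s ≤ r) (h1 : β ≤ 1 / 2) :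
    9 * s ^ ((1 - β) / 2) ≤ 8 * r ^ ((1 - β) / 2) := by
  have h2 := Real.rpow_le_rpow (by positivity) h (by linarith : 0 ≤ (1 - β) / 2)
  rw [Real.mul_rpow (by norm_num) hs] at h2
  have h3 : (9 / 8 : ℝ) ≤ 2 ^ ((1 - β) / 2) := by
    refine le_trans ?_ (Real.rpow_le_rpow_of_exponent_le (by norm_num)
      (by linarith : ((4 : ℕ) : ℝ)⁻¹ ≤ (1 - β) / 2))
    rw [← Real.pow_rpow_inv_natCast (by norm_num : (0 : ℝ) ≤ 9 / 8) (by norm_num : (4 : ℕ) ≠ 0)]
    exact Real.rpow_le_rpow (by positivity) (by norm_num) (by positivity)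
  have h4 := mul_le_mul_of_nonneg_right h3 (Real.rpow_nonneg hs ((1 - β) / 2))
  linarith

variable {M : ℕ} [NeZero M] {A : Gauge M} {z : Tor M} {s₀ ρ : ℕ} {c β : ℝ}

theorem decH (h : HomDecH A z s₀ ρ c β) (hc : 0 ≤ c) {s r : ℕ} (h0 : 1 ≤ s) (h1 : s₀ ≤ s)
    (h2 : s ≤ r) (h3 : r ≤ ρ) {φ : Tor M × Fin 4 → ℝ} (hφ : Hom A z r φ) :
    nr (ball z s) φ * (r : ℝ) ^ ((1 + β) / 2) ≤ c * (s : ℝ) ^ ((1 + β) / 2) * nr (ball z r) φ := by
  refine le_of_sq (mul_nonneg (by positivity) (nr_nonneg _ _)) ?_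
  have hr : (0 : ℝ) < r := by exact_mod_cast (by omega : 0 < r)
  have h4 := h s r h1 h2 h3 φ hφ
  rw [Real.div_rpow (by positivity) hr.le, mul_div_assoc', div_mul_eq_mul_div,
    le_div_iff₀ (by positivity)] at h4
  rwa [mul_pow, mul_pow, mul_pow, nr_sq, nr_sq, rpow_sq hr.le, rpow_sq (by positivity)]

theorem step (hd : HomDecH A z s₀ ρ c β) (hs : Solv A z s₀ ρ c) (hc : 1 ≤ c) (hβ : 0 < β)
    (hβ' : β ≤ 1 / 2) {s : ℕ} (hs1 : 1 ≤ s) (h1 : s₀ ≤ s) (w : Tor M × Fin 4 → ℝ) (r : ℕ) :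
    s ≤ r → r ≤ ρ → ∀ v, nr univ v ≤ c * r * nr (ball z r) (Dm A *ᵥ w) → Hom A z r (w - v) →
      nr (ball z s) w ≤ nr (ball z s) (w - v) + 32 * c ^ 2 * (s : ℝ) ^ ((1 + β) / 2) *
        ((r : ℝ) ^ ((1 - β) / 2) * nr (ball z ρ) (Dm A *ᵥ w)) := by
  induction r using Nat.strong_induction_on with
  | _ r ih =>
  intro h2 h3 v hv hh
  set G := nr (ball z ρ) (Dm A *ᵥ w) with hG
  have hG0 : 0 ≤ G := nr_nonneg _ _
  have hc0 : 0 ≤ c := by linarith
  have hcc : c ≤ c ^ 2 := by nlinarith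
  have hs0 : (0 : ℝ) < s := by exact_mod_cast hs1
  have hr1 : (0 : ℝ) < r := by exact_mod_cast (by omega : 0 < r)
  have hv' : nr univ v ≤ c * r * G :=
    hv.trans (mul_le_mul_of_nonneg_left (nr_mono (E3.ball_mono z h3) _) (by positivity))
  set a := (s : ℝ) ^ ((1 + β) / 2) with ha
  have ha0 : 0 ≤ a := by positivity
  by_cases hr : r < 2 * s
  · have h4 := nr_add (ball z s) (w - v) v
    rw [sub_add_cancel] at h4
    have h5 := nr_mono (subset_univ (ball z s)) v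
    have h6 := g_le hr1.le hs0.le (by exact_mod_cast hr.le) hβ hβ'
    have h7 : c * r * G ≤ c ^ 2 * (2 * a * (r : ℝ) ^ ((1 - β) / 2)) * G := by
      nth_rw 1 [← gh hr1 β]
      gcongr
    have h8 : 0 ≤ c ^ 2 * a * ((r : ℝ) ^ ((1 - β) / 2) * G) := by positivity
    linarith
  · obtain ⟨v', hv1, hv2⟩ := solv hs hc0 (r := r / 2) (by omega) (by omega) w
    have h4 := ih (r / 2) (by omega) (by omega) (by omega) v' hv1 hv2
    have h5 : Hom A z (r / 2) (v - v') := fun t ht => by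
      have e : v - v' = (w - v') - (w - v) := by abel
      rw [e, mulVec_sub, Pi.sub_apply, hv2 t ht, hh t (ht.trans (Nat.div_le_self _ _)), sub_self]
    have h6 := decH hd hc0 hs1 h1 (r := r / 2) (by omega) (by omega) h5
    have h7 := nr_add (ball z s) (w - v) (v - v')
    rw [sub_add_sub_cancel] at h7
    have hr0 : (0 : ℝ) < (r / 2 : ℕ) := by exact_mod_cast (by omega : 0 < r / 2)
    have hr3 : (r : ℝ) ≤ 3 * (r / 2 : ℕ) := by exact_mod_cast (by omega : r ≤ 3 * (r / 2))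
    have hr2 : 2 * ((r / 2 : ℕ) : ℝ) ≤ r := by exact_mod_cast (by omega : 2 * (r / 2) ≤ r)
    have h8 : nr univ v' ≤ c * (r / 2 : ℕ) * G := hv1.trans (mul_le_mul_of_nonneg_left
      (nr_mono (E3.ball_mono z (by omega)) _) (by positivity))
    have h9 : nr (ball z (r / 2)) (v - v') ≤ 4 * c * (r / 2 : ℕ) * G := by
      have := (nr_mono (subset_univ (ball z (r / 2))) (v - v')).trans (nr_sub _ v v')
      have h10 : c * r * G ≤ c * (3 * (r / 2 : ℕ)) * G := by gcongr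
      linarith
    set b := ((r / 2 : ℕ) : ℝ) ^ ((1 - β) / 2) with hb
    have h10 : nr (ball z s) (v - v') ≤ 4 * c ^ 2 * a * (b * G) := by
      refine le_of_mul_le_mul_right (h6.trans ?_) (Real.rpow_pos_of_pos hr0 ((1 + β) / 2))
      refine (mul_le_mul_of_nonneg_left h9 (by positivity)).trans (le_of_eq ?_)
      nth_rw 1 [← gh hr0 β]
      ring
    have h11 := mul_le_mul_of_nonneg_left (h_le hr0.le hr2 hβ')
      (by positivity : 0 ≤ 4 * c ^ 2 * a * G)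
    linarith

end An3

open An3

/-- From the homogeneous to the inhomogeneous Hölder decay. -/
theorem teleH : TeleH := by
  intro c β hc hβ hβ'
  have hcc : c ≤ c ^ 2 := by nlinarith
  refine ⟨34 * c ^ 2, by linarith, fun M _ A z s₀ ρ hs₀ hd hs s h1 h2 w => ?_⟩
  have hc0 : 0 ≤ c := by linarith
  set H := √(hsq A ρ (ball z ρ) w) with hH
  have hH0 : 0 ≤ H := Real.sqrt_nonneg _
  have hH2 : H ^ 2 = hsq A ρ (ball z ρ) w := Real.sq_sqrt (RN.hsq_nonneg _ _ _ _)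
  have hρ : (0 : ℝ) < ρ := by exact_mod_cast (by omega : 0 < ρ)
  have a0 : nr (ball z ρ) w ≤ H := Real.sqrt_le_sqrt (E4.l2sq_le_hsq _ _ _ _)
  have a1 : ρ * nr (ball z ρ) (Dm A *ᵥ w) ≤ H := le_of_sq hH0 (by
    rw [mul_pow, nr_sq, hH2]; exact E4.l2sq_D_le_hsq _ _ _ _)
  obtain ⟨v, hv1, hv2⟩ := solv hs hc0 (h1.trans h2) le_rfl w
  have h3 := An3.step hd hs hc hβ hβ' (by omega) h1 w ρ h2 le_rfl v hv1 hv2
  have h4 := decH hd hc0 (by omega) h1 h2 le_rfl hv2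
  have h5 := nr_sub (ball z ρ) w v
  have h6 := (nr_mono (subset_univ (ball z ρ)) v).trans hv1
  set G := nr (ball z ρ) (Dm A *ᵥ w) with hG
  set a := (s : ℝ) ^ ((1 + β) / 2) with ha
  have ha0 : 0 ≤ a := by positivity
  have h7 : c * a * nr (ball z ρ) (w - v) ≤ c * a * (H + c * H) :=
    mul_le_mul_of_nonneg_left (by nlinarith) (by positivity)
  have h8 := mul_le_mul_of_nonneg_right h3 (Real.rpow_nonneg hρ.le ((1 + β) / 2))
  have h9 : 32 * c ^ 2 * a * ((ρ : ℝ) ^ ((1 - β) / 2) * G) * (ρ : ℝ) ^ ((1 + β) / 2) ≤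
      32 * c ^ 2 * a * H := by
    rw [mul_assoc]
    refine mul_le_mul_of_nonneg_left (le_of_eq_of_le ?_ a1) (by positivity)
    nth_rw 3 [← gh hρ β]
    ring
  have h10 : nr (ball z s) w * (ρ : ℝ) ^ ((1 + β) / 2) ≤ 34 * c ^ 2 * a * H := by
    have := mul_le_mul_of_nonneg_right hcc (mul_nonneg ha0 hH0)
    linarith
  have h11 := pow_le_pow_left₀ (mul_nonneg (nr_nonneg _ _) (by positivity)) h10 2
  rw [mul_pow, nr_sq, mul_pow, mul_pow, hH2, rpow_sq hρ.le, ha, rpow_sq (by positivity)] at h11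
  rwa [Real.div_rpow (by positivity) hρ.le, mul_div_assoc', div_mul_eq_mul_div,
    le_div_iff₀ (by positivity)]

end Vale.Agent.P144Z
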